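import Mathlib

/-!
Analysis of the bump functions of problem P113: rho, kappa, sigma, the plateau functions,
bumps, and the periodization of a compactly supported smooth function.
-/

namespace Vale.Agent.P113.H282

noncomputable section

open Real MeasureTheory Set Filter Topology

/-- The function rho(s) = exp(-1/(1-s^2)) for |s|<1, and 0 otherwise. -/
def rho (s : ℝ) : ℝ := if |s| < 1 then Real.exp (-1 / (1 - s ^ 2)) else 0

/-- kappa is the integral of rho. -/
def kappa : ℝ := ∫ s, rho s

/-- sigma is the primitive of rho vanishing at minus infinity. -/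
def sigma (s : ℝ) : ℝ := ∫ t in Iic s, rho t

/-- The plateau function. -/
def plat (l s : ℝ) : ℝ := sigma s - sigma (s - l)

/-- Periodization with period one. -/
def periodize (g : ℝ → ℝ) (y : ℝ) : ℝ := ∑' m : ℤ, g (y + m)

/-! ### rho -/

theorem rho_eq (s : ℝ) : rho s = expNegInvGlue (1 - s ^ 2) := by
  unfold rho expNegInvGlue
  by_cases h : |s| < 1
  · have h1 : s ^ 2 < 1 := (sq_lt_one_iff_abs_lt_one s).2 h
    rw [if_pos h, if_neg (by linarith)]
    congr 1
    rw [neg_div, one_div]
  · have h1 : 1 ≤ s ^ 2 := by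
      have := not_lt.1 h
      rw [← sq_abs]; nlinarith
    rw [if_neg h, if_pos (by linarith)]

theorem rho_contDiff {n : ℕ∞} : ContDiff ℝ n rho := by
  have : rho = fun s => expNegInvGlue (1 - s ^ 2) := funext rho_eq
  rw [this]
  exact expNegInvGlue.contDiff.comp (contDiff_const.sub (contDiff_id.pow 2))

theorem rho_continuous : Continuous rho := (rho_contDiff (n := 0)).continuous

theorem rho_nonneg (s : ℝ) : 0 ≤ rho s := by
  unfold rho; split_ifs <;> positivity

theorem rho_pos {s : ℝ} (h : |s| < 1) : 0 < rho s := by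
  unfold rho; rw [if_pos h]; positivity

theorem rho_zero {s : ℝ} (h : 1 ≤ |s|) : rho s = 0 := by
  unfold rho; rw [if_neg (not_lt.2 h)]

theorem rho_support : Function.support rho = Ioo (-1) 1 := by
  ext s
  rw [Function.mem_support, mem_Ioo, ← abs_lt]
  constructor
  · intro h
    by_contra h'
    exact h (rho_zero (not_lt.1 h'))
  · intro h
    exact (rho_pos h).ne'

theorem rho_hasCompactSupport : HasCompactSupport rho := by
  rw [HasCompactSupport, tsupport, rho_support]
  rw [closure_Ioo (by norm_num)]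
  exact isCompact_Icc

theorem rho_integrable : Integrable rho :=
  rho_continuous.integrable_of_hasCompactSupport rho_hasCompactSupport

theorem kappa_pos : 0 < kappa := by
  unfold kappa
  rw [integral_pos_iff_support_of_nonneg rho_nonneg rho_integrable, rho_support]
  simp

theorem kappa_ne : kappa ≠ 0 := kappa_pos.ne'

/-! ### iterated derivatives of rho -/

theorem rhoD_contDiff (j : ℕ) {n : ℕ∞} : ContDiff ℝ n (iteratedDeriv j rho) := by
  rw [iteratedDeriv_eq_iterate]
  exact (ContDiff.iterate_deriv j (rho_contDiff (n := ⊤))).of_le (by exact_mod_cast le_top)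

theorem rhoD_continuous (j : ℕ) : Continuous (iteratedDeriv j rho) :=
  (rhoD_contDiff j (n := 0)).continuous

theorem rhoD_hasDerivAt (j : ℕ) (s : ℝ) :
    HasDerivAt (iteratedDeriv j rho) (iteratedDeriv (j + 1) rho s) s := by
  rw [iteratedDeriv_succ]
  exact ((rhoD_contDiff j (n := 1)).differentiable (by norm_num)).differentiableAt.hasDerivAt

theorem rhoD_zero_of_gt (j : ℕ) {s : ℝ} (h : 1 < |s|) : iteratedDeriv j rho s = 0 := by
  have h1 : rho =ᶠ[𝓝 s] fun _ => (0 : ℝ) := by
    have : {t : ℝ | 1 < |t|} ∈ 𝓝 s := (isOpen_lt continuous_const continuous_abs).mem_nhds h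
    filter_upwards [this] with t ht using rho_zero (le_of_lt ht)
  rw [h1.iteratedDeriv_eq]
  simp

theorem rhoD_zero (j : ℕ) {s : ℝ} (h : 1 ≤ |s|) : iteratedDeriv j rho s = 0 := by
  have hc : IsClosed {t : ℝ | iteratedDeriv j rho t = 0} :=
    isClosed_eq (rhoD_continuous j) continuous_const
  have hsub : closure {t : ℝ | 1 < |t|} ⊆ {t : ℝ | iteratedDeriv j rho t = 0} :=
    closure_minimal (fun t ht => rhoD_zero_of_gt j ht) hc
  apply hsub
  rw [mem_closure_iff_seq_limit]
  refine ⟨fun n => s * (1 + 1 / ((n : ℝ) + 1)), fun n => ?_, ?_⟩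
  · rw [mem_ofPred_eq, abs_mul]
    have h2 : (1 : ℝ) < |1 + 1 / ((n : ℝ) + 1)| := by
      rw [abs_of_pos (by positivity)]
      have : (0 : ℝ) < 1 / ((n : ℝ) + 1) := by positivity
      linarith
    nlinarith
  · have h3 : Tendsto (fun n : ℕ => s * (1 + 1 / ((n : ℝ) + 1))) atTop (𝓝 (s * (1 + 0))) :=
      (tendsto_one_div_add_atTop_nhds_zero_nat.const_add 1).const_mul s
    simpa using h3

/-! ### sigma -/

theorem sigma_eq (s : ℝ) : sigma s = ∫ t in (-1 : ℝ)..s, rho t := by
  unfold sigma
  rw [← intervalIntegral.integral_Iic_sub_Iic rho_integrable.integrableOn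
    rho_integrable.integrableOn]
  have : ∫ t in Iic (-1 : ℝ), rho t = 0 := by
    rw [setIntegral_eq_zero_of_forall_eq_zero]
    intro t ht
    apply rho_zero
    rw [mem_Iic] at ht
    rw [abs_of_nonpos (by linarith)]; linarith
  rw [this, sub_zero]

theorem sigma_hasDerivAt (s : ℝ) : HasDerivAt sigma (rho s) s := by
  have : sigma = fun s => ∫ t in (-1 : ℝ)..s, rho t := funext sigma_eq
  rw [this]
  exact rho_continuous.integral_hasStrictDerivAt _ _ |>.hasDerivAt

theorem sigma_deriv : deriv sigma = rho := funext fun s => (sigma_hasDerivAt s).deriv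

theorem sigma_contDiff {n : ℕ∞} : ContDiff ℝ n sigma := by
  have h : ContDiff ℝ ((n : WithTop ℕ∞) + 1) sigma := by
    rw [contDiff_succ_iff_deriv]
    refine ⟨fun s => (sigma_hasDerivAt s).differentiableAt, ?_, ?_⟩
    · intro h; exact absurd h (by simp)
    · rw [sigma_deriv]; exact rho_contDiff
  exact h.of_le le_self_add

theorem sigma_zero {s : ℝ} (h : s ≤ -1) : sigma s = 0 := by
  unfold sigma
  rw [setIntegral_eq_zero_of_forall_eq_zero]
  intro t ht
  apply rho_zero
  rw [mem_Iic] at ht
  rw [abs_of_nonpos (by linarith)]; linarith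

theorem sigma_kappa {s : ℝ} (h : 1 ≤ s) : sigma s = kappa := by
  unfold sigma kappa
  rw [setIntegral_eq_integral_of_forall_compl_eq_zero]
  intro t ht
  apply rho_zero
  rw [mem_Iic, not_le] at ht
  rw [abs_of_nonneg (by linarith)]; linarith

theorem sigma_mono : Monotone sigma :=
  monotone_of_deriv_nonneg (fun s => (sigma_hasDerivAt s).differentiableAt)
    (fun s => by rw [sigma_deriv]; exact rho_nonneg s)

theorem sigma_nonneg (s : ℝ) : 0 ≤ sigma s := by
  unfold sigma
  exact integral_nonneg rho_nonneg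

theorem sigma_le_kappa (s : ℝ) : sigma s ≤ kappa := by
  rcases le_total s 1 with h | h
  · rw [← sigma_kappa (le_refl (1 : ℝ))]; exact sigma_mono h
  · exact (sigma_kappa h).le

/-! ### plateau functions -/

theorem plat_contDiff (l : ℝ) {n : ℕ∞} : ContDiff ℝ n (plat l) :=
  sigma_contDiff.sub (sigma_contDiff.comp (contDiff_id.sub contDiff_const))

theorem plat_hasDerivAt (l s : ℝ) : HasDerivAt (plat l) (rho s - rho (s - l)) s := by
  have h1 := sigma_hasDerivAt s
  have h2 := (sigma_hasDerivAt (s - l)).comp s ((hasDerivAt_id s).sub_const l)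
  rw [mul_one] at h2
  exact h1.sub h2

theorem plat_eq_kappa {l s : ℝ} (h1 : 1 ≤ s) (h2 : s ≤ l - 1) : plat l s = kappa := by
  unfold plat
  rw [sigma_kappa h1, sigma_zero (by linarith), sub_zero]

theorem plat_zero_left {l s : ℝ} (hl : 0 ≤ l) (h : s ≤ -1) : plat l s = 0 := by
  unfold plat
  rw [sigma_zero h, sigma_zero (by linarith), sub_zero]

theorem plat_zero_right {l s : ℝ} (hl : 0 ≤ l) (h : l + 1 ≤ s) : plat l s = 0 := by
  unfold plat
  rw [sigma_kappa (by linarith), sigma_kappa (by linarith), sub_self]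

theorem plat_nonneg {l : ℝ} (hl : 0 ≤ l) (s : ℝ) : 0 ≤ plat l s := by
  unfold plat
  have := sigma_mono (show s - l ≤ s by linarith)
  linarith

theorem plat_le_kappa (l s : ℝ) : plat l s ≤ kappa := by
  unfold plat
  have h1 := sigma_le_kappa s
  have h2 := sigma_nonneg (s - l)
  linarith

/-! ### cutoffs with rational parameters -/

/-- The normalized cutoff: equal to one on [α, β] and to zero outside (α - ε, β + ε). -/
def cut (α β ε s : ℝ) : ℝ := kappa⁻¹ * plat (2 / ε * (β - α) + 2) (2 / ε * s - (2 / ε * α - 1))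

theorem cut_contDiff (α β ε : ℝ) {n : ℕ∞} : ContDiff ℝ n (cut α β ε) :=
  contDiff_const.mul ((plat_contDiff _).comp
    ((contDiff_const.mul contDiff_id).sub contDiff_const))

theorem cut_one {α β ε s : ℝ} (hε : 0 < ε) (h1 : α ≤ s) (h2 : s ≤ β) : cut α β ε s = 1 := by
  unfold cut
  have h3 : 2 / ε * α ≤ 2 / ε * s := mul_le_mul_of_nonneg_left h1 (by positivity)
  have h4 : 2 / ε * s ≤ 2 / ε * β := mul_le_mul_of_nonneg_left h2 (by positivity)
  rw [plat_eq_kappa (by linarith) (by linarith), inv_mul_cancel₀ kappa_ne]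

theorem cut_zero_left {α β ε s : ℝ} (hε : 0 < ε) (hαβ : α ≤ β) (h : s ≤ α - ε) :
    cut α β ε s = 0 := by
  unfold cut
  have h3 : 2 / ε * s ≤ 2 / ε * (α - ε) := mul_le_mul_of_nonneg_left h (by positivity)
  have h4 : 2 / ε * (α - ε) = 2 / ε * α - 2 := by field_simp
  have h5 : 0 ≤ 2 / ε * (β - α) := mul_nonneg (by positivity) (by linarith)
  rw [plat_zero_left (by linarith) (by linarith), mul_zero]

theorem cut_zero_right {α β ε s : ℝ} (hε : 0 < ε) (hαβ : α ≤ β) (h : β + ε ≤ s) :
    cut α β ε s = 0 := by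
  unfold cut
  have h3 : 2 / ε * (β + ε) ≤ 2 / ε * s := mul_le_mul_of_nonneg_left h (by positivity)
  have h4 : 2 / ε * (β + ε) = 2 / ε * β + 2 := by field_simp
  have h5 : 0 ≤ 2 / ε * (β - α) := mul_nonneg (by positivity) (by linarith)
  rw [plat_zero_right (by linarith) (by linarith), mul_zero]

theorem cut_nonneg {α β ε : ℝ} (hε : 0 < ε) (hαβ : α ≤ β) (s : ℝ) : 0 ≤ cut α β ε s := by
  unfold cut
  have h5 : 0 ≤ 2 / ε * (β - α) := mul_nonneg (by positivity) (by linarith)
  exact mul_nonneg (inv_nonneg.2 kappa_pos.le) (plat_nonneg (by linarith) _)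

theorem cut_le_one (α β ε s : ℝ) : cut α β ε s ≤ 1 := by
  unfold cut
  rw [inv_mul_le_iff₀ kappa_pos, mul_one]
  exact plat_le_kappa _ _

end

end Vale.Agent.P113.H282
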