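import Vale.Agent.P113.H282.Mach
import Vale.Agent.P113.H278.Code

/-!
The start coefficient of the compiler of problem P113 is computable.
-/

namespace Vale.Agent.P113.H282

open Vale.Agent.P113

/-- Numerator and denominator minus one of the code of a stack. -/
def numCode {k : ℕ} (l : List (Fin k)) : ℕ × ℕ :=
  l.foldr (fun (a : Fin k) (p : ℕ × ℕ) =>
    ((2 * (a : ℕ) + 1) * (p.2 + 1) + p.1, (2 * k + 2) * (p.2 + 1) - 1)) (0, 0)

theorem primrec_numCode {k : ℕ} : Primrec (numCode (k := k)) := by
  unfold numCode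
  have hq : Primrec fun x : List (Fin k) × (Fin k × (ℕ × ℕ)) => x.2.2.2 + 1 :=
    Primrec.succ.comp (Primrec.snd.comp (Primrec.snd.comp Primrec.snd))
  have ha : Primrec fun x : List (Fin k) × (Fin k × (ℕ × ℕ)) => 2 * (x.2.1 : ℕ) + 1 :=
    Primrec.succ.comp (Primrec.nat_mul.comp (Primrec.const 2)
      (Primrec.fin_val.comp (Primrec.fst.comp Primrec.snd)))
  have h1 : Primrec fun x : List (Fin k) × (Fin k × (ℕ × ℕ)) =>
      (2 * (x.2.1 : ℕ) + 1) * (x.2.2.2 + 1) + x.2.2.1 :=
    Primrec.nat_add.comp (Primrec.nat_mul.comp ha hq)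
      (Primrec.fst.comp (Primrec.snd.comp Primrec.snd))
  have h2 : Primrec fun x : List (Fin k) × (Fin k × (ℕ × ℕ)) =>
      (2 * k + 2) * (x.2.2.2 + 1) - 1 :=
    Primrec.nat_sub.comp (Primrec.nat_mul.comp (Primrec.const (2 * k + 2)) hq) (Primrec.const 1)
  exact Primrec.list_foldr Primrec.id (Primrec.const (0, 0)) (Primrec.pair h1 h2).to₂

theorem numCode_eq {k : ℕ} (l : List (Fin k)) :
    ((numCode l).1 : ℚ) / ((numCode l).2 + 1) = H278.code l := by
  induction l with
  | nil => simp [numCode, H278.code]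
  | cons a l ih =>
    have e1 : (numCode (a :: l)).1 = (2 * (a : ℕ) + 1) * ((numCode l).2 + 1) + (numCode l).1 := rfl
    have e2 : (numCode (a :: l)).2 = (2 * k + 2) * ((numCode l).2 + 1) - 1 := rfl
    have e3 : (numCode (a :: l)).2 + 1 = (2 * k + 2) * ((numCode l).2 + 1) := by
      rw [e2]
      have : 0 < (2 * k + 2) * ((numCode l).2 + 1) := by positivity
      omega
    have e4 : (((numCode (a :: l)).2 : ℚ) + 1) = (2 * k + 2) * ((numCode l).2 + 1) := by
      exact_mod_cast e3
    rw [H278.code, ← ih, e4, e1, H278.base]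
    have h1 : ((numCode l).2 : ℚ) + 1 ≠ 0 := by positivity
    have h2 : (2 * (k : ℚ) + 2) ≠ 0 := by positivity
    push_cast
    field_simp

/-- The start coefficient: one third of the code. -/
def startCode {k : ℕ} (l : List (Fin k)) : RatCode :=
  (true, (numCode l).1, 3 * ((numCode l).2 + 1) - 1)

theorem primrec_startCode {k : ℕ} : Primrec (startCode (k := k)) := by
  unfold startCode
  exact (Primrec.const true).pair ((Primrec.fst.comp primrec_numCode).pair
    (Primrec.nat_sub.comp (Primrec.nat_mul.comp (Primrec.const 3)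
      (Primrec.succ.comp (Primrec.snd.comp primrec_numCode))) (Primrec.const 1)))

theorem ratVal_startCode {k : ℕ} (l : List (Fin k)) :
    ratVal (startCode l) = 1 / 3 * H278.code l := by
  rw [← numCode_eq]
  unfold ratVal startCode
  have h : (((3 * ((numCode l).2 + 1) - 1 : ℕ) : ℚ) + 1) = 3 * (((numCode l).2 : ℚ) + 1) := by
    have h1 : (3 * ((numCode l).2 + 1) - 1) + 1 = 3 * ((numCode l).2 + 1) := by omega
    exact_mod_cast h1
  simp only [if_true]
  rw [h]
  have h1 : ((numCode l).2 : ℚ) + 1 ≠ 0 := by positivity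
  field_simp

/-- The start coefficient can be computed. -/
theorem exists_start {k : ℕ} {f : Machine × List ℕ → List (Fin k)} (hf : Primrec f) :
    ∃ start : Machine × List ℕ → RatCode, Computable start ∧
      ∀ Mw, ratVal (start Mw) = 1 / 3 * H278.code (f Mw) :=
  ⟨fun Mw => startCode (f Mw), (primrec_startCode.comp hf).to_comp,
    fun Mw => ratVal_startCode (f Mw)⟩

end Vale.Agent.P113.H282
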