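import Mathlib

/-!
Computability tools for problem P113: semidecidability of existential statements over iterates of
a primitive recursive step function, primitive recursiveness of integer successor/predecessor.
-/

namespace Vale.Agent.P113.H282

/-- Unbounded search over a computable predicate is semidecidable. -/
theorem rePred_exists {α : Type*} [Primcodable α] {p : α → ℕ → Bool} (hp : Computable₂ p) :
    REPred (fun a => ∃ n, p a n = true) := by
  have h1 : Partrec fun a => Nat.rfind (fun n => (Part.some (p a n) : Part Bool)) :=
    Partrec.rfind (p := fun a n => Part.some (p a n)) hp.partrec₂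
  refine h1.dom_re.of_eq fun a => ?_
  constructor
  · intro h
    obtain ⟨n, hn, -⟩ := Nat.rfind_dom.1 h
    exact ⟨n, by simpa using hn⟩
  · rintro ⟨n, hn⟩
    exact Nat.rfind_dom.2 ⟨n, by simpa using hn, fun _ => trivial⟩

/-- Iterates of a primitive recursive step function starting from a primitive recursive
initial configuration. -/
theorem primrec_iterate {α σ : Type*} [Primcodable α] [Primcodable σ] {step : α → σ → σ}
    {init : α → σ} (hs : Primrec₂ step) (hi : Primrec init) :
    Primrec₂ fun (a : α) (n : ℕ) => (step a)^[n] (init a) := by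
  have h : Primrec₂ fun (a : α) (n : ℕ) =>
      Nat.rec (motive := fun _ => σ) (init a) (fun _ c => step a c) n :=
    Primrec.nat_rec (f := init) (g := fun a p => step a p.2) hi
      (hs.comp Primrec.fst (Primrec.snd.comp Primrec.snd)).to₂
  refine h.of_eq fun a n => ?_
  induction n with
  | zero => rfl
  | succ n ih => rw [Function.iterate_succ_apply', ← ih]

theorem rePred_iterate {α σ : Type*} [Primcodable α] [Primcodable σ] {step : α → σ → σ}
    {init : α → σ} {halt : α → σ → Bool} (hs : Primrec₂ step) (hi : Primrec init)
    (hh : Primrec₂ halt) :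
    REPred (fun a => ∃ n, halt a ((step a)^[n] (init a)) = true) := by
  have h : Primrec₂ fun (a : α) (n : ℕ) => halt a ((step a)^[n] (init a)) :=
    hh.comp₂ Primrec₂.left (primrec_iterate hs hi)
  exact rePred_exists h.to_comp

/-! ### integers -/

theorem encode_natCast (n : ℕ) : Encodable.encode (n : ℤ) = 2 * n := rfl

theorem encode_ofNat (n : ℕ) : Encodable.encode (Int.ofNat n) = 2 * n := rfl

theorem encode_negSucc (n : ℕ) : Encodable.encode (Int.negSucc n) = 2 * n + 1 := rfl

theorem primrec_natCast : Primrec (fun n : ℕ => (n : ℤ)) := by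
  rw [← Primrec.encode_iff]
  exact (Primrec.nat_mul.comp (Primrec.const 2) Primrec.id).of_eq fun n => (encode_natCast n).symm

theorem primrec_int_succ : Primrec (fun z : ℤ => z + 1) := by
  rw [← Primrec.encode_iff]
  have h : Primrec fun z : ℤ =>
      if Encodable.encode z % 2 = 0 then Encodable.encode z + 2 else Encodable.encode z - 2 :=
    Primrec.ite
      (Primrec.eq.comp (Primrec.nat_mod.comp Primrec.encode (Primrec.const 2)) (Primrec.const 0))
      (Primrec.nat_add.comp Primrec.encode (Primrec.const 2))
      (Primrec.nat_sub.comp Primrec.encode (Primrec.const 2))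
  refine h.of_eq fun z => ?_
  rcases z with n | n
  · have h1 : (Int.ofNat n + 1 : ℤ) = Int.ofNat (n + 1) := rfl
    rw [h1, encode_ofNat, encode_ofNat, if_pos (by omega)]; ring
  · rcases n with _ | n
    · rfl
    · have h1 : (Int.negSucc (n + 1) + 1 : ℤ) = Int.negSucc n := rfl
      rw [h1, encode_negSucc, encode_negSucc, if_neg (by omega)]; omega

theorem primrec_int_pred : Primrec (fun z : ℤ => z - 1) := by
  rw [← Primrec.encode_iff]
  have h : Primrec fun z : ℤ =>
      if Encodable.encode z % 2 = 1 then Encodable.encode z + 2 else
        if Encodable.encode z = 0 then 1 else Encodable.encode z - 2 :=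
    Primrec.ite
      (Primrec.eq.comp (Primrec.nat_mod.comp Primrec.encode (Primrec.const 2)) (Primrec.const 1))
      (Primrec.nat_add.comp Primrec.encode (Primrec.const 2))
      (Primrec.ite (Primrec.eq.comp Primrec.encode (Primrec.const 0)) (Primrec.const 1)
        (Primrec.nat_sub.comp Primrec.encode (Primrec.const 2)))
  refine h.of_eq fun z => ?_
  rcases z with n | n
  · rcases n with _ | n
    · rfl
    · have h1 : (Int.ofNat (n + 1) - 1 : ℤ) = Int.ofNat n := by simp
      rw [h1, encode_ofNat, encode_ofNat, if_neg (by omega), if_neg (by omega)]; omega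
  · have h1 : (Int.negSucc n - 1 : ℤ) = Int.negSucc (n + 1) := rfl
    rw [h1, encode_negSucc, encode_negSucc, if_pos (by omega)]; ring

/-- The move of the head: left, stay, right. -/
theorem primrec_move : Primrec₂ (fun (z : ℤ) (d : Fin 3) => z + (d : ℕ) - 1) := by
  have h : Primrec₂ fun (z : ℤ) (d : Fin 3) =>
      if d = 0 then z - 1 else if d = 1 then z else z + 1 :=
    Primrec.ite (Primrec.eq.comp Primrec.snd (Primrec.const 0))
      (primrec_int_pred.comp Primrec.fst)
      (Primrec.ite (Primrec.eq.comp Primrec.snd (Primrec.const 1)) Primrec.fst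
        (primrec_int_succ.comp Primrec.fst))
  refine h.of_eq fun z d => ?_
  fin_cases d <;> simp
  ring

end Vale.Agent.P113.H282
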