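import Vale.Agent.P113.Defs
import Vale.Agent.P113.H282.Comp

/-!
The halting set of the machines of problem P113 is semidecidable.
-/

namespace Vale.Agent.P113.H282

open Vale.Agent.P113

/-- Configurations with the tape recorded as the list of all the writes, latest first. -/
abbrev AC := ℕ × ℤ × List (ℤ × ℕ)

/-- Machines as tuples. -/
abbrev MT := ℕ × ℕ × List ℕ × List ((ℕ × ℕ) × (ℕ × ℕ × Fin 3))

/-- The contents of a cell. -/
def readA (b : ℕ) (w : List ℕ) (A : List (ℤ × ℕ)) (z : ℤ) : ℕ :=
  (A.lookup z).getD (if Encodable.encode z % 2 = 0 then w.getD (Encodable.encode z / 2) b else b)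

/-- The instruction carried out. -/
def nextA (a : MT × List ℕ) (c : AC) : Option (ℕ × ℕ × Fin 3) :=
  @List.lookup _ _ instBEqOfDecidableEq (c.1, readA a.1.2.1 a.2 c.2.2 c.2.1) a.1.2.2.2

/-- The new configuration when a given instruction is carried out. -/
def doA (c : AC) (r : ℕ × ℕ × Fin 3) : AC :=
  (r.1, c.2.1 + (r.2.2 : ℕ) - 1, (c.2.1, r.2.1) :: c.2.2)

/-- One step. -/
def stepA (a : MT × List ℕ) (c : AC) : AC := Option.casesOn (nextA a c) c (fun r => doA c r)

/-- The configuration of the machine. -/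
def toConfig (b : ℕ) (w : List ℕ) (c : AC) : Config := ⟨c.1, c.2.1, readA b w c.2.2⟩

theorem readA_nil (b : ℕ) (w : List ℕ) (z : ℤ) :
    readA b w [] z = if 0 ≤ z then w.getD z.toNat b else b := by
  unfold readA
  rcases z with n | n
  · rw [encode_ofNat]
    simp
  · rw [encode_negSucc]
    have h : ¬ (0 : ℤ) ≤ Int.negSucc n := by simp [Int.negSucc_not_nonneg]
    rw [if_neg h, if_neg (by omega)]
    rfl

theorem readA_cons (b : ℕ) (w : List ℕ) (A : List (ℤ × ℕ)) (z : ℤ) (s : ℕ) :
    readA b w ((z, s) :: A) = Function.update (readA b w A) z s := by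
  funext y
  unfold readA
  rw [List.lookup_cons]
  by_cases h : y = z
  · subst h; simp
  · rw [Function.update_of_ne h]
    have : (y == z) = false := by simpa using h
    rw [this]

theorem lookup_inst {α β : Type*} [DecidableEq α] [B : BEq α] [LawfulBEq α] (l : List (α × β))
    (k : α) : @List.lookup _ _ B k l = @List.lookup _ _ instBEqOfDecidableEq k l := by
  induction l with
  | nil => rfl
  | cons e l ih =>
    obtain ⟨a, b⟩ := e
    simp only [List.lookup_cons, ih]
    by_cases h : k = a
    · subst h; simp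
    · have h1 : (@BEq.beq _ B k a) = false := by simpa using h
      have h2 : (@BEq.beq _ instBEqOfDecidableEq k a) = false := by simpa using h
      rw [h1, h2]

theorem toConfig_init (M : Machine) (w : List ℕ) :
    toConfig M.blank w (M.start, 0, []) = M.init w := by
  unfold toConfig Machine.init
  simp only [Config.mk.injEq, true_and]
  funext z
  exact readA_nil _ w z

theorem toConfig_step (M : Machine) (w : List ℕ) (c : AC) :
    toConfig M.blank w (stepA (Machine.equiv M, w) c) = M.step (toConfig M.blank w c) := by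
  have h : nextA (Machine.equiv M, w) c =
      M.table.lookup ((toConfig M.blank w c).state,
        (toConfig M.blank w c).tape (toConfig M.blank w c).head) := by
    rw [lookup_inst]
    rfl
  unfold stepA Machine.step
  rw [← h]
  rcases nextA (Machine.equiv M, w) c with _ | ⟨q, b, e⟩
  · rfl
  · simp only [toConfig, doA, Config.mk.injEq, true_and]
    exact readA_cons _ _ _ _ _

theorem toConfig_iterate (M : Machine) (w : List ℕ) (n : ℕ) :
    toConfig M.blank w ((stepA (Machine.equiv M, w))^[n] (M.start, 0, [])) =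
      M.step^[n] (M.init w) := by
  induction n with
  | zero => exact toConfig_init M w
  | succ n ih => rw [Function.iterate_succ_apply', Function.iterate_succ_apply', toConfig_step, ih]

theorem haltsOn_iff (M : Machine) (w : List ℕ) :
    M.HaltsOn w ↔
      ∃ n : ℕ, ((stepA (Machine.equiv M, w))^[n] (M.start, 0, [])).1 ∈ M.halting := by
  unfold Machine.HaltsOn
  refine exists_congr fun n => ?_
  rw [← toConfig_iterate]
  rfl

theorem primrec_readA :
    Primrec fun p : ℕ × List ℕ × List (ℤ × ℕ) × ℤ => readA p.1 p.2.1 p.2.2.1 p.2.2.2 := by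
  unfold readA
  have he : Primrec fun p : ℕ × List ℕ × List (ℤ × ℕ) × ℤ => Encodable.encode p.2.2.2 :=
    Primrec.encode.comp (Primrec.snd.comp (Primrec.snd.comp Primrec.snd))
  have hg : Primrec fun p : ℕ × List ℕ × List (ℤ × ℕ) × ℤ =>
      p.2.1.getD (Encodable.encode p.2.2.2 / 2) p.1 := by
    have h1 : Primrec fun p : ℕ × List ℕ × List (ℤ × ℕ) × ℤ =>
        (p.2.1[Encodable.encode p.2.2.2 / 2]?).getD p.1 :=
      Primrec.option_getD.comp (Primrec.list_getElem?.comp (Primrec.fst.comp Primrec.snd)
        (Primrec.nat_div.comp he (Primrec.const 2))) Primrec.fst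
    exact h1.of_eq fun p => (List.getD_eq_getElem?_getD).symm
  refine Primrec.option_getD.comp (Primrec.listLookup.comp
      (Primrec.snd.comp (Primrec.snd.comp Primrec.snd))
      (Primrec.fst.comp (Primrec.snd.comp Primrec.snd))) ?_
  exact Primrec.ite (Primrec.eq.comp (Primrec.nat_mod.comp he (Primrec.const 2)) (Primrec.const 0))
    hg Primrec.fst

theorem primrec_nextA : Primrec₂ nextA := by
  have h0 : Primrec fun p : (MT × List ℕ) × AC => ((p.1.1.2.1, p.1.2, p.2.2.2, p.2.2.1) :
      ℕ × List ℕ × List (ℤ × ℕ) × ℤ) :=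
    (Primrec.fst.comp (Primrec.snd.comp (Primrec.fst.comp Primrec.fst))).pair
      ((Primrec.snd.comp Primrec.fst).pair
        ((Primrec.snd.comp (Primrec.snd.comp Primrec.snd)).pair
          (Primrec.fst.comp (Primrec.snd.comp Primrec.snd))))
  have hr := Primrec.comp primrec_readA h0
  have h1 : Primrec fun p : (MT × List ℕ) × AC =>
      (p.2.1, readA p.1.1.2.1 p.1.2 p.2.2.2 p.2.2.1) :=
    (Primrec.fst.comp Primrec.snd).pair hr
  have h2 : Primrec fun p : (MT × List ℕ) × AC => p.1.1.2.2.2 :=
    Primrec.snd.comp (Primrec.snd.comp (Primrec.snd.comp (Primrec.fst.comp Primrec.fst)))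
  have h3 := Primrec₂.comp (Primrec.listLookup (α := ℕ × ℕ) (β := ℕ × ℕ × Fin 3)) h1 h2
  refine Primrec.of_eq h3 fun p => ?_
  rfl

theorem primrec_doA : Primrec₂ doA := by
  have h1 : Primrec fun p : AC × (ℕ × ℕ × Fin 3) => p.1.2.1 + (p.2.2.2 : ℕ) - 1 :=
    primrec_move.comp (Primrec.fst.comp (Primrec.snd.comp Primrec.fst))
      (Primrec.snd.comp (Primrec.snd.comp Primrec.snd))
  have h2 : Primrec fun p : AC × (ℕ × ℕ × Fin 3) => (p.1.2.1, p.2.2.1) :: p.1.2.2 :=
    Primrec.list_cons.comp ((Primrec.fst.comp (Primrec.snd.comp Primrec.fst)).pair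
      (Primrec.fst.comp (Primrec.snd.comp Primrec.snd)))
      (Primrec.snd.comp (Primrec.snd.comp Primrec.fst))
  exact ((Primrec.fst.comp Primrec.snd).pair (h1.pair h2))

theorem primrec_stepA : Primrec₂ stepA := by
  have h1 : Primrec₂ fun (p : (MT × List ℕ) × AC) (r : ℕ × ℕ × Fin 3) => doA p.2 r :=
    primrec_doA.comp (Primrec.snd.comp Primrec.fst) Primrec.snd
  have h2 : Primrec fun p : (MT × List ℕ) × AC => nextA p.1 p.2 := primrec_nextA
  have h3 := Primrec.option_casesOn h2 Primrec.snd h1
  refine Primrec.of_eq h3 fun p => ?_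
  rfl

theorem primrec_mem : PrimrecRel fun (L : List ℕ) (n : ℕ) => n ∈ L := by
  have h := PrimrecRel.exists_mem_list (R := fun a b : ℕ => a = b) Primrec.eq
  refine h.of_eq fun L n => ?_
  simp

theorem primrec_halt :
    Primrec₂ fun (a : MT × List ℕ) (c : AC) => decide (c.1 ∈ a.1.2.2.1) := by
  have h1 : Primrec fun p : (MT × List ℕ) × AC => p.1.1.2.2.1 :=
    Primrec.fst.comp (Primrec.snd.comp (Primrec.snd.comp (Primrec.fst.comp Primrec.fst)))
  have h2 : Primrec fun p : (MT × List ℕ) × AC => p.2.1 := Primrec.fst.comp Primrec.snd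
  exact (PrimrecRel.decide primrec_mem).comp h1 h2

theorem rePred_tuple : REPred fun a : MT × List ℕ =>
    ∃ n : ℕ, ((stepA a)^[n] (a.1.1, 0, [])).1 ∈ a.1.2.2.1 := by
  have hi : Primrec fun a : MT × List ℕ => ((a.1.1, 0, []) : AC) :=
    (Primrec.fst.comp Primrec.fst).pair (Primrec.const _)
  refine (rePred_iterate primrec_stepA hi primrec_halt).of_eq fun a => ?_
  simp

theorem primrec_machine_equiv : Primrec Machine.equiv := Primrec.of_equiv

/-- The halting problem of the machines is semidecidable. -/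
theorem rePred_haltsOn : REPred fun Mw : Machine × List ℕ => Mw.1.HaltsOn Mw.2 := by
  have h1 : Primrec fun Mw : Machine × List ℕ => (Machine.equiv Mw.1, Mw.2) :=
    (primrec_machine_equiv.comp Primrec.fst).pair Primrec.snd
  refine (REPred.of_eq (Partrec.dom_re
    (Partrec.comp (rePred_tuple) h1.to_comp)) fun a => ?_)
  rw [haltsOn_iff]
  constructor
  · rintro ⟨h, -⟩
    exact h
  · intro h
    exact ⟨h, trivial⟩

end Vale.Agent.P113.H282
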